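import Vale.Agent.P200.Q.Small4
import Vale.Agent.P200.X.Rows2

/-!
The main induction (`Q/Small2.lean`, `Q/Small3.lean`) with two more types:
* all but the two smallest elements of `T` up to `i` have the same prime degree `a i = p`, `p! ≠ 0` in `K` (base case
  `X.egh_two`, used when `T = univ`; no induction on the degree is needed);
* `(2, 3, p, A)` and `(2, 2, p, A)`: four forms, `p` prime, `p! ≠ 0`, any `A ≥ p` (like `caseExtra`, induction on `A`: for `A = p`
  it is the first type; for `A > p`: `∑ (a i - 1) ≤ 2 A`, `egh_of_half` with `B = A`, `growth_low` for `d + 1 < A`,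
  `growth_step` for `d + 1 = A`, which leads to `(2, 3, p, A - 1)` or to a split last form).

Single degrees (`lexPart_growth_p`), generalizing `lexPart_growth_le_two` and `lexPart_growth_top`.  For a degree `d`,
`growth_step` replaces the entries `> d` by `d` or by `N` (split), so growth in degree `d` holds
* for `d ≤ 2`,
* if `d + 1 < a i` for all `i ≥ 3` (these entries become `N`),
* if `d` is prime, `d! ≠ 0` and `d ≤ a i` for all `i ≥ 2` (the entries are `a 0, a 1, d, ..., d, N, ..., N`),
and, when `n = c`, for the dual degrees `∑ (a i - 1) - d - 1` (`egh_dual`).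
-/

namespace Vale.Agent.P200.Z

open MvPolynomial Vale.Agent.P200.G Vale.Agent.P200.Q

/-- the condition on `T` -/
def AdmP (K : Type*) [Field K] {c : ℕ} (a : Fin c → ℕ) (T : Finset (Fin c)) : Prop :=
  ∀ i ∈ T, 3 ≤ (T.filter (· < i)).card →
    (∀ j ∈ T, j ≤ i → a j = 2) ∨ ∑ j ∈ T.filter (· < i), (a j - 1) < a i ∨
    ((T.filter (· < i)).card = 3 ∧ 2 ≤ (T.filter fun j => j < i ∧ a j = 2).card) ∨
    ((T.filter (· < i)).card = 4 ∧ ∀ j ∈ T, j < i → a j = 2) ∨
    ((a i).Prime ∧ ((a i).factorial : K) ≠ 0 ∧
      ∀ j ∈ T, j < i → 2 ≤ (T.filter (· < j)).card → a j = a i) ∨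
    ((T.filter (· < i)).card = 3 ∧ 1 ≤ (T.filter fun j => j < i ∧ a j = 2).card ∧
      2 ≤ (T.filter fun j => j < i ∧ a j ≤ 3).card ∧
      ∀ j ∈ T, j < i → (T.filter (· < j)).card = 2 → (a j).Prime ∧ ((a j).factorial : K) ≠ 0)

/-- the condition on a single degree -/
def DegP (K : Type*) [Field K] {c : ℕ} (a : Fin c → ℕ) (d : ℕ) : Prop :=
  d ≤ 2 ∨ (∀ i : Fin c, 3 ≤ i.1 → d + 1 < a i) ∨
    (d.Prime ∧ (d.factorial : K) ≠ 0 ∧ ∀ i : Fin c, 2 ≤ i.1 → d ≤ a i)

variable {n c : ℕ}

/-! ### elementary properties of `AdmP` -/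

theorem z_cast_ne {K : Type*} [Field K] {m : ℕ} (h : (m : K) ≠ 0) :
    ((m : ℕ) : AlgebraicClosure K) ≠ 0 := by
  rw [← map_natCast (algebraMap K (AlgebraicClosure K))]
  exact (map_ne_zero _).2 h

theorem z_adm_closure {K : Type*} [Field K] {a : Fin c → ℕ} {T : Finset (Fin c)}
    (hT : AdmP K a T) : AdmP (AlgebraicClosure K) a T := by
  intro i hi h3
  rcases hT i hi h3 with h | h | h | h | h | h
  · exact Or.inl h
  · exact Or.inr (Or.inl h)
  · exact Or.inr (Or.inr (Or.inl h))
  · exact Or.inr (Or.inr (Or.inr (Or.inl h)))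
  · exact Or.inr (Or.inr (Or.inr (Or.inr (Or.inl ⟨h.1, z_cast_ne h.2.1, h.2.2⟩))))
  · exact Or.inr (Or.inr (Or.inr (Or.inr (Or.inr ⟨h.1, h.2.1, h.2.2.1, fun j hj hji hc =>
      ⟨(h.2.2.2 j hj hji hc).1, z_cast_ne (h.2.2.2 j hj hji hc).2⟩⟩))))

theorem z_deg_closure {K : Type*} [Field K] {a : Fin c → ℕ} {d : ℕ}
    (hT : DegP K a d) : DegP (AlgebraicClosure K) a d := by
  rcases hT with h | h | h
  · exact Or.inl h
  · exact Or.inr (Or.inl h)
  · exact Or.inr (Or.inr ⟨h.1, z_cast_ne h.2.1, h.2.2⟩)

/-- Transport of admissibility along a strictly monotone map. -/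
theorem z_adm_pull {K : Type*} [Field K] {n N : ℕ} {a : Fin N → ℕ}
    {T : Finset (Fin N)} (h : AdmP K a T) (e : Fin n ↪ Fin N)
    (T' : Finset (Fin n)) (hT' : ∀ i ∈ T', e i ∈ T)
    (hf : ∀ i ∈ T', (T'.filter fun j => j < i).map e = T.filter fun j => j < e i) :
    AdmP K (fun i => a (e i)) T' := by
  intro i hi h3
  have h1 := h (e i) (hT' i hi)
  have hlt : ∀ i ∈ T', ∀ j ∈ T', j < i → e j < e i := by
    intro i hi j hj hji
    have h4 : e j ∈ (T'.filter fun j => j < i).map e :=
      Finset.mem_map_of_mem e (Finset.mem_filter.2 ⟨hj, hji⟩)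
    rw [hf i hi] at h4
    exact (Finset.mem_filter.1 h4).2
  have hcard : ∀ i ∈ T', (T.filter fun j => j < e i).card = (T'.filter fun j => j < i).card := by
    intro i hi
    rw [← hf i hi, Finset.card_map]
  have hf2 : (T'.filter fun j => j < i ∧ a (e j) = 2).map e =
      T.filter fun j => j < e i ∧ a j = 2 := by
    rw [← Finset.filter_filter, ← Finset.filter_filter, ← hf i hi, Finset.filter_map]
    rfl
  have hf3 : (T'.filter fun j => j < i ∧ a (e j) ≤ 3).map e =
      T.filter fun j => j < e i ∧ a j ≤ 3 := by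
    rw [← Finset.filter_filter, ← Finset.filter_filter, ← hf i hi, Finset.filter_map]
    rfl
  rw [← hf2, Finset.card_map, ← hf3, Finset.card_map, hcard i hi, ← hf i hi,
    Finset.sum_map] at h1
  rcases h1 h3 with h2 | h2 | h2 | h2 | h2 | h2
  · refine Or.inl fun j hj hji => h2 (e j) (hT' j hj) ?_
    rcases hji.eq_or_lt with rfl | hlt'
    · exact le_rfl
    · exact (hlt i hi j hj hlt').le
  · exact Or.inr (Or.inl h2)
  · exact Or.inr (Or.inr (Or.inl h2))
  · exact Or.inr (Or.inr (Or.inr (Or.inl
      ⟨h2.1, fun j hj hji => h2.2 _ (hT' j hj) (hlt i hi j hj hji)⟩)))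
  · refine Or.inr (Or.inr (Or.inr (Or.inr (Or.inl ⟨h2.1, h2.2.1, fun j hj hji hc => ?_⟩))))
    exact h2.2.2 _ (hT' j hj) (hlt i hi j hj hji) (by rw [hcard j hj]; exact hc)
  · refine Or.inr (Or.inr (Or.inr (Or.inr (Or.inr ⟨h2.1, h2.2.1, h2.2.2.1,
      fun j hj hji hc => ?_⟩))))
    exact h2.2.2.2 _ (hT' j hj) (hlt i hi j hj hji) (by rw [hcard j hj]; exact hc)

theorem z_adm_of_card_lt (K : Type*) [Field K] {n : ℕ} (a : Fin n → ℕ)
    (T : Finset (Fin n)) (h : T.card < 3) : AdmP K a T := by
  intro i _ h3
  have := Finset.card_le_card (Finset.filter_subset (fun j => j < i) T)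
  omega

theorem z_adm_erase_last {K : Type*} [Field K] {n : ℕ} {a : Fin (n + 1) → ℕ}
    (h : AdmP K a Finset.univ) : AdmP K a (Finset.univ.erase (Fin.last n)) := by
  refine z_adm_pull h (Function.Embedding.refl _) _ (fun i _ => Finset.mem_univ _) ?_
  intro i hi
  ext j
  rw [Finset.mem_map, Finset.mem_filter]
  constructor
  · rintro ⟨l, hl, rfl⟩
    exact ⟨Finset.mem_univ _, (Finset.mem_filter.1 hl).2⟩
  · rintro ⟨-, hj⟩
    have hjl : j ≠ Fin.last n := by
      rintro rfl
      exact absurd hj (not_lt.2 (Fin.le_last _))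
    exact ⟨j, Finset.mem_filter.2 ⟨Finset.mem_erase.2 ⟨hjl, Finset.mem_univ _⟩, hj⟩, rfl⟩

/-- the additional types -/
def ExtraP (K : Type*) [Field K] {n : ℕ} (a : Fin (n + 1) → ℕ) : Prop :=
  Extra a ∨ (n = 3 ∧ (∀ i : Fin (n + 1), i.1 = 0 → a i = 2) ∧
    (∀ i : Fin (n + 1), i.1 = 1 → a i ≤ 3) ∧
    ∀ i : Fin (n + 1), i.1 = 2 → (a i).Prime ∧ ((a i).factorial : K) ≠ 0)

theorem z_adm_of_adm {K : Type*} [Field K] {a : Fin n → ℕ} {T : Finset (Fin n)}
    (h : Adm a T) : AdmP K a T := by
  intro i hi h3
  rcases h.grow i hi h3 with h | h | h | h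
  · exact Or.inr (Or.inl h)
  · exact Or.inl h
  · exact Or.inr (Or.inr (Or.inl h))
  · exact Or.inr (Or.inr (Or.inr (Or.inl h)))

theorem z_adm_of_extra {K : Type*} [Field K] {n : ℕ} {a : Fin (n + 1) → ℕ} (h : ExtraP K a)
    (T : Finset (Fin (n + 1))) : AdmP K a T := by
  rcases h with h | ⟨rfl, h0, h1, h2⟩
  · exact z_adm_of_adm (adm_of_extra h T)
  · intro i hi h3
    have hle : (T.filter fun j => j < i).card ≤ i.1 := by
      rw [← card_filter_lt i]
      exact Finset.card_le_card (Finset.filter_subset_filter _ (Finset.subset_univ _))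
    have hi3 : i = 3 := by
      apply Fin.ext
      have := i.2
      show i.1 = 3
      omega
    subst hi3
    have heq : (T.filter fun j => j < (3 : Fin 4)) = Finset.univ.filter fun j => j < (3 : Fin 4) := by
      apply Finset.eq_of_subset_of_card_le (Finset.filter_subset_filter _ (Finset.subset_univ _))
      rw [card_filter_lt]
      exact h3
    have hmem : ∀ j : Fin 4, j < 3 → j ∈ T := by
      intro j hj
      have h4 : j ∈ (Finset.univ.filter fun j => j < (3 : Fin 4)) :=
        Finset.mem_filter.2 ⟨Finset.mem_univ _, hj⟩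
      rw [← heq] at h4
      exact (Finset.mem_filter.1 h4).1
    refine Or.inr (Or.inr (Or.inr (Or.inr (Or.inr ⟨?_, ?_, ?_, ?_⟩))))
    · rw [heq, card_filter_lt]
      rfl
    · refine Finset.card_pos.2 ⟨0, Finset.mem_filter.2 ⟨hmem 0 (by decide), by decide, h0 0 rfl⟩⟩
    · have h5 : ({0, 1} : Finset (Fin 4)) ⊆ T.filter fun j => j < 3 ∧ a j ≤ 3 := by
        intro j hj
        rw [Finset.mem_insert, Finset.mem_singleton] at hj
        rcases hj with rfl | rfl
        · exact Finset.mem_filter.2 ⟨hmem 0 (by decide), by decide, by rw [h0 0 rfl]; norm_num⟩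
        · exact Finset.mem_filter.2 ⟨hmem 1 (by decide), by decide, h1 1 rfl⟩
      have h6 := Finset.card_le_card h5
      rwa [Finset.card_pair (by decide)] at h6
    · intro j hj hj3 hc
      apply h2
      have h7 : (T.filter fun l => l < j) = Finset.univ.filter fun l => l < j := by
        apply Finset.Subset.antisymm (Finset.filter_subset_filter _ (Finset.subset_univ _))
        intro l hl
        rw [Finset.mem_filter] at hl ⊢
        exact ⟨hmem l (hl.2.trans hj3), hl.2⟩
      have h8 : (T.filter fun l => l < j).card = j.1 := by rw [h7, card_filter_lt]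
      exact h8.symm.trans hc

/-! ### the main induction -/

/-- The statement for `n` variables. -/
def ZMainS (K : Type*) [Field K] (n : ℕ) : Prop :=
  ∀ (a : Fin n → ℕ), Monotone a → (∀ i, 2 ≤ a i) →
    ∀ f : Fin n → MvPolynomial (Fin n) K, (∀ i, (f i).IsHomogeneous (a i)) →
      IsMPrimary (Ideal.span (Set.range f)) →
      ∀ T : Finset (Fin n), AdmP K a T → (∀ i, i ∉ T → SplitsLinear (a i) (f i)) →
      ∀ I : Ideal (MvPolynomial (Fin n) K), HomIdeal I → (∀ i, f i ∈ I) → EGH a I

/-- The statement for `n` variables, with at least one split form. -/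
def ZMainT (K : Type*) [Field K] (n : ℕ) : Prop :=
  ∀ (a : Fin n → ℕ), Monotone a → (∀ i, 2 ≤ a i) →
    ∀ f : Fin n → MvPolynomial (Fin n) K, (∀ i, (f i).IsHomogeneous (a i)) →
      IsMPrimary (Ideal.span (Set.range f)) →
      ∀ T : Finset (Fin n), T ≠ Finset.univ → AdmP K a T →
      (∀ i, i ∉ T → SplitsLinear (a i) (f i)) →
      ∀ I : Ideal (MvPolynomial (Fin n) K), HomIdeal I → (∀ i, f i ∈ I) → EGH a I

/-- Case A: one of the forms splits. -/
theorem z_caseA {K : Type*} [Field K] {n : ℕ} (ih : ZMainS K n)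
    (a : Fin (n + 1) → ℕ) (ha : Monotone a) (h2 : ∀ i, 2 ≤ a i)
    (f : Fin (n + 1) → MvPolynomial (Fin (n + 1)) K) (hf : ∀ i, (f i).IsHomogeneous (a i))
    (hm : IsMPrimary (Ideal.span (Set.range f))) (k : Fin (n + 1))
    (hk : SplitsLinear (a k) (f k)) (T' : Finset (Fin n))
    (hT' : AdmP K (fun i => a (k.succAbove i)) T')
    (hs : ∀ i, i ∉ T' → SplitsLinear (a (k.succAbove i)) (f (k.succAbove i)))
    (I : Ideal (MvPolynomial (Fin (n + 1)) K)) (hI : HomIdeal I) (hfI : ∀ i, f i ∈ I) :
    EGH a I := by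
  have hpos : ∀ i, 1 ≤ a i := fun i => le_trans (by norm_num) (h2 i)
  refine egh_of_linear_factors a ha hpos k I hI (f k) hk
    (ne_zero_of_isMPrimary a hpos f hf hm k) (hfI k) ?_
  intro l hl hl0 hdvd J hJ hIJ hlJ
  obtain ⟨φ, hφ⟩ := exists_eliminates hl hl0
  have h1 := ih (fun i => a (k.succAbove i)) (fun i j hij => ha (by
      exact (Fin.strictMono_succAbove k).monotone hij)) (fun i => h2 _)
    (fun i => φ (f (k.succAbove i))) (fun i => hφ.homog _ _ (hf _))
    (hφ.isMPrimary k f hm hdvd) T' hT' (fun i hi => hφ.splitsLinear (hs i hi))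
    (J.map φ) (hφ.homIdeal_map hJ) (fun i => Ideal.mem_map_of_mem _ (hIJ (hfI _)))
  rw [egh_iff_num] at h1
  have h3 : hilb (J.map φ) = hilb J := funext fun d => hφ.hilb_map hlJ d
  rwa [h3] at h1

theorem z_mainT_of_mainS {K : Type*} [Field K] {n : ℕ} (ih : ZMainS K n) :
    ZMainT K (n + 1) := by
  classical
  intro a ha h2 f hf hm T hTu hT hs I hI hfI
  obtain ⟨k, hk⟩ : ∃ k, k ∉ T := by
    by_contra hcon
    push Not at hcon
    exact hTu (Finset.eq_univ_iff_forall.2 hcon)
  refine z_caseA ih a ha h2 f hf hm k (hs k hk)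
    (Finset.univ.filter fun i => k.succAbove i ∈ T) ?_
    (fun i hi => hs _ fun h => hi (Finset.mem_filter.2 ⟨Finset.mem_univ _, h⟩)) I hI hfI
  refine z_adm_pull hT k.succAboveEmb _
    (fun i hi => (Finset.mem_filter.1 hi).2) ?_
  intro i _
  ext j
  rw [Finset.mem_map, Finset.mem_filter]
  constructor
  · rintro ⟨l, hl, rfl⟩
    rw [Finset.mem_filter, Finset.mem_filter] at hl
    exact ⟨hl.1.2, Fin.strictMono_succAbove _ hl.2⟩
  · rintro ⟨hj, hji⟩
    have hjk : j ≠ k := by
      rintro rfl
      exact hk hj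
    obtain ⟨l, rfl⟩ := Fin.exists_succAbove_eq hjk
    exact ⟨l, Finset.mem_filter.2 ⟨Finset.mem_filter.2 ⟨Finset.mem_univ _, hj⟩,
      (Fin.strictMono_succAbove _).lt_iff_lt.1 hji⟩, rfl⟩

/-- low degrees: the last form is not seen -/
theorem z_growth_low {K : Type*} [Field K] [Infinite K] {n : ℕ} (hT : ZMainT K (n + 1))
    (a : Fin (n + 1) → ℕ) (ha : Monotone a) (h2 : ∀ i, 2 ≤ a i)
    (f : Fin (n + 1) → MvPolynomial (Fin (n + 1)) K) (hf : ∀ i, (f i).IsHomogeneous (a i))
    (hm : IsMPrimary (Ideal.span (Set.range f)))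
    (hadm : AdmP K a (Finset.univ.erase (Fin.last n)))
    (I : Ideal (MvPolynomial (Fin (n + 1)) K)) (hI : HomIdeal I) (hfI : ∀ i, f i ∈ I)
    (d : ℕ) (hd : d + 1 < a (Fin.last n)) :
    up a d ((boxD a d).card - hilb I d) + hilb I (d + 1) ≤ (boxD a (d + 1)).card := by
  classical
  have hpos : ∀ i, 1 ≤ a i := fun i => le_trans (by norm_num) (h2 i)
  set A := a (Fin.last n) with hA
  obtain ⟨l, hl, hlm⟩ := exists_linear_replacement a hpos f hf hm (Fin.last n)
  have hm'' := isMPrimary_update_pow _ (Fin.last n) A hlm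
  rw [Function.update_idem, Function.update_self] at hm''
  have hlA : (l ^ A).IsHomogeneous A := by
    simpa using hl.pow A
  have h3 := hT a ha h2 (Function.update f (Fin.last n) (l ^ A)) (fun i => by
      rcases eq_or_ne i (Fin.last n) with rfl | hi
      · rw [Function.update_self]
        exact hlA
      · rw [Function.update_of_ne hi]
        exact hf i) hm'' (Finset.univ.erase (Fin.last n))
    (fun h => by
      have := Finset.mem_univ (Fin.last n)
      rw [← h] at this
      exact Finset.notMem_erase _ _ this) hadm (fun i hi => by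
      have hi' : i = Fin.last n := by
        by_contra hcon
        exact hi (Finset.mem_erase.2 ⟨hcon, Finset.mem_univ _⟩)
      subst hi'
      rw [Function.update_self]
      exact splitsLinear_pow_fin hl _)
    (I ⊔ Ideal.span {l ^ A})
    (G.homIdeal_sup hI (G.homIdeal_span (by
        rintro g hg
        rw [Set.mem_singleton_iff] at hg
        exact ⟨A, by rw [hg]; exact hlA⟩))) (fun i => by
        rcases eq_or_ne i (Fin.last n) with rfl | hi
        · rw [Function.update_self]
          exact Ideal.mem_sup_right (Ideal.mem_span_singleton_self _)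
        · rw [Function.update_of_ne hi]
          exact Ideal.mem_sup_left (hfI i)) d
  rwa [hilb_sup_span_of_lt hI hlA hd, hilb_sup_span_of_lt hI hlA (by omega : d < A)] at h3

/-- the additional types -/
theorem z_caseExtra {K : Type*} [Field K] [IsAlgClosed K] {n : ℕ} (hT : ZMainT K (n + 1))
    (s : ℕ) :
    ∀ (a : Fin (n + 1) → ℕ) (_ : Monotone a) (_ : ∀ i, 2 ≤ a i) (_ : ExtraP K a)
      (_ : ∑ i, a i ≤ s)
      (f : Fin (n + 1) → MvPolynomial (Fin (n + 1)) K) (_ : ∀ i, (f i).IsHomogeneous (a i))
      (_ : IsMPrimary (Ideal.span (Set.range f)))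
      (I : Ideal (MvPolynomial (Fin (n + 1)) K)) (_ : HomIdeal I) (_ : ∀ i, f i ∈ I),
      EGH a I := by
  classical
  have hinf : Infinite K := IsAlgClosed.instInfinite
  induction s with
  | zero =>
    intro a _ h2 _ hs
    have h1 := Finset.single_le_sum (f := a) (fun _ _ => Nat.zero_le _)
      (Finset.mem_univ (Fin.last n))
    have := h2 (Fin.last n)
    omega
  | succ s ih =>
    intro a ha h2 hX hsum f hf hm I hI hfI
    by_cases hall : ∀ i, a i = 2
    · obtain rfl : a = fun _ => 2 := funext hall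
      exact base_quad f hf hm I hfI
    have hpos : ∀ i, 1 ≤ a i := fun i => le_trans (by norm_num) (h2 i)
    -- the type `(2, 3, p, p)`
    by_cases hpp : n = 3 ∧ (∀ i : Fin (n + 1), i.1 = 2 → (a i).Prime ∧
        ((a i).factorial : K) ≠ 0 ∧ a i = a (Fin.last n))
    · obtain ⟨hn, hpp⟩ := hpp
      subst hn
      obtain ⟨hp1, hp2, hp3⟩ := hpp 2 rfl
      refine X.egh_two hp1 hp2 a ha hpos (fun i => ?_) (fun i hi => ?_) f hf hm I hI hfI
      · rw [hp3]
        exact ha (Fin.le_last i)
      · apply le_antisymm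
        · rw [hp3]
          exact ha (Fin.le_last i)
        · exact ha (show (2 : Fin 4) ≤ i from hi)
    set A := a (Fin.last n) with hA
    have hA3 : 3 ≤ A := by
      by_contra hcon
      apply hall
      intro i
      have h3 := ha (Fin.le_last i)
      have h4 := h2 i
      omega
    have hle : ∀ i, a i ≤ A := fun i => ha (Fin.le_last i)
    -- in the second type the third degree is smaller than the last
    have hlt2 : ∀ h : n = 3 ∧ (∀ i : Fin (n + 1), i.1 = 2 → (a i).Prime ∧
        ((a i).factorial : K) ≠ 0), ∀ i : Fin (n + 1), i.1 ≤ 2 → a i < A := by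
      intro h i hi
      by_contra hcon
      apply hpp
      refine ⟨h.1, fun j hj => ⟨(h.2 j hj).1, (h.2 j hj).2, ?_⟩⟩
      apply le_antisymm (hle j)
      have h5 : a i ≤ a j := ha (show i.1 ≤ j.1 by omega)
      omega
    refine egh_of_half a hpos f hf hm A ?_ ?_ I hI hfI
    · intro I hI hfI d hd
      rcases Nat.lt_or_ge (d + 1) A with hd1 | hd1
      · exact z_growth_low hT a ha h2 f hf hm (z_adm_of_extra hX _) I hI hfI d hd1
      have hdA : d + 1 = A := by omega
      set N := d + 2 with hN
      refine growth_step a ha hpos f hf hm I hfI d (by omega) N (by omega) ?_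
      intro a' hmono c1 c2 _ F hF hFm hFs I' hI' hFI'
      have hX' : ExtraP K a' := by
        rcases hX with (⟨h3, h4⟩ | ⟨h3, h4⟩) | ⟨h3, h4, h5, h6⟩
        · refine Or.inl (Or.inl ⟨h3, fun i hi => ?_⟩)
          have h5 := h4 i hi
          rw [c1 i (by omega), h5]
        · refine Or.inl (Or.inr ⟨h3, fun i hi => ?_⟩)
          have h5 := h4 i hi
          rw [c1 i (by omega), h5]
        · have hlt := hlt2 ⟨h3, h6⟩
          refine Or.inr ⟨h3, fun i hi => ?_, fun i hi => ?_, fun i hi => ?_⟩
          · have := hlt i (by omega)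
            rw [c1 i (by omega)]
            exact h4 i hi
          · have := hlt i (by omega)
            rw [c1 i (by omega)]
            exact h5 i hi
          · have := hlt i (by omega)
            rw [c1 i (by omega)]
            exact h6 i hi
      have h2' : ∀ i, 2 ≤ a' i := by
        intro i
        rcases Nat.lt_or_ge d (a i) with h | h
        · rcases c2 i h with h | h <;> omega
        · rw [c1 i h]; exact h2 i
      by_cases hu : ∀ i, a' i ≠ N
      · -- no power of a linear form
        have hle : ∀ i, a' i ≤ a i := by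
          intro i
          rcases Nat.lt_or_ge d (a i) with h | h
          · rcases c2 i h with h3 | h3
            · omega
            · exact absurd h3 (hu i)
          · exact (c1 i h).le
        have hlast : a' (Fin.last n) < a (Fin.last n) := by
          rcases c2 (Fin.last n) (by omega) with h3 | h3
          · omega
          · exact absurd h3 (hu _)
        have hlt := Finset.sum_lt_sum (s := Finset.univ) (fun i _ => hle i)
          ⟨Fin.last n, Finset.mem_univ _, hlast⟩
        exact ih a' hmono h2' hX' (by omega) F hF hFm I' hI' hFI' d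
      · push Not at hu
        obtain ⟨k, hk⟩ := hu
        refine hT a' hmono h2' F hF hFm (Finset.univ.filter fun i => a' i ≠ N) ?_
          (z_adm_of_extra hX' _) (fun i hi => hFs i (by simpa using hi)) I' hI' hFI' d
        intro h
        have := Finset.mem_univ k
        rw [← h, Finset.mem_filter] at this
        exact this.2 hk
    · rcases hX with (⟨h3, h4⟩ | ⟨h3, h4⟩) | ⟨h3, h4, h5, h6⟩
      · subst h3
        rw [Fin.sum_univ_four]
        have e0 := h4 0 (by decide)
        have e1 := h4 1 (by decide)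
        have e2 := hle 2
        have e3 : a 3 = A := rfl
        omega
      · subst h3
        rw [Fin.sum_univ_five]
        have e0 := h4 0 (by decide)
        have e1 := h4 1 (by decide)
        have e2 := h4 2 (by decide)
        have e3 := h4 3 (by decide)
        have e4 : a 4 = A := rfl
        omega
      · have hlt := hlt2 ⟨h3, h6⟩
        subst h3
        rw [Fin.sum_univ_four]
        have e0 := h4 0 rfl
        have e1 := h5 1 rfl
        have e2 := hlt 2 (by decide)
        have e3 : a 3 = A := rfl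
        omega

/-- **Main induction.** -/
theorem z_egh_main {K : Type*} [Field K] [IsAlgClosed K] : ∀ n : ℕ, ZMainS K n := by
  classical
  have hinf : Infinite K := IsAlgClosed.instInfinite
  intro n
  induction n with
  | zero =>
    intro a _ _ f hf hm T _ _ I _ hfI d
    exact egh_large_small a (fun i => i.elim0) f hf hm I hfI d (by simp)
  | succ n ih =>
    intro a ha h2 f hf hm T hT hs I hI hfI
    have hpos : ∀ i, 1 ≤ a i := fun i => le_trans (by norm_num) (h2 i)
    have hMT : ZMainT K (n + 1) := z_mainT_of_mainS ih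
    rcases Nat.lt_or_ge n 2 with hn | hn
    · -- at most two variables
      have hsp : ∀ i, SplitsLinear (a i) (f i) := fun i =>
        splitsLinear_of_le_two (by omega) (hpos i) (hf i)
      exact z_caseA ih a ha h2 f hf hm 0 (hsp 0) ∅
        (z_adm_of_card_lt K _ _ (by simp)) (fun i _ => hsp _) I hI hfI
    by_cases hTu : T = Finset.univ
    · subst hTu
      rcases hn.eq_or_lt with hn2 | hn3
      · -- three variables
        subst hn2
        exact base3 K a ha h2 f hf hm I hI hfI
      · -- at least four variables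
        have h3 := hT (Fin.last n) (Finset.mem_univ _)
        rw [card_filter_lt, Fin.val_last] at h3
        rcases h3 hn3 with h4 | h4 | h4 | h4 | h4 | h4
        · obtain rfl : a = fun _ => 2 :=
            funext fun i => h4 i (Finset.mem_univ _) (Fin.le_last i)
          exact base_quad f hf hm I hfI
        · -- large last degree
          refine egh_of_half a hpos f hf hm (a (Fin.last n) - 1) ?_ ?_ I hI hfI
          · intro I hI hfI d hd
            exact z_growth_low hMT a ha h2 f hf hm (z_adm_erase_last hT) I hI hfI d (by omega)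
          · have hfil : (Finset.univ : Finset (Fin (n + 1))).filter (fun j => j < Fin.last n) =
                (Finset.univ : Finset (Fin n)).map Fin.castSuccEmb := by
              ext j
              rw [Finset.mem_filter, Finset.mem_map]
              constructor
              · rintro ⟨-, hj⟩
                exact ⟨j.castPred hj.ne, Finset.mem_univ _, Fin.castSucc_castPred _ _⟩
              · rintro ⟨i, -, rfl⟩
                exact ⟨Finset.mem_univ _, Fin.castSucc_lt_last i⟩
            rw [hfil, Finset.sum_map] at h4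
            have h5 : ∑ i, (a i - 1) = ∑ j : Fin n, (a j.castSucc - 1) + (a (Fin.last n) - 1) :=
              Fin.sum_univ_castSucc _
            have h6 : ∑ x : Fin n, (a (Fin.castSuccEmb x) - 1) =
              ∑ j : Fin n, (a j.castSucc - 1) := rfl
            omega
        · -- the type `(2, 2, a, b)`
          have hX : Extra a := by
            refine Or.inl ⟨h4.1, fun i hi => ?_⟩
            by_contra hcon
            have h5 := h2 i
            have h6 : (Finset.univ.filter fun j : Fin (n + 1) => j < Fin.last n ∧ a j = 2) ⊆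
                Finset.univ.filter fun j => j < i := by
              intro j hj
              rw [Finset.mem_filter] at hj ⊢
              refine ⟨Finset.mem_univ _, ?_⟩
              by_contra hcon2
              have := ha (not_lt.1 hcon2)
              omega
            have h7 := Finset.card_le_card h6
            rw [card_filter_lt] at h7
            omega
          exact z_caseExtra hMT _ a ha h2 (Or.inl hX) le_rfl f hf hm I hI hfI
        · have hX : Extra a := by
            refine Or.inr ⟨h4.1, fun i hi => h4.2 i (Finset.mem_univ _) ?_⟩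
            rw [Fin.lt_def, Fin.val_last]
            omega
          exact z_caseExtra hMT _ a ha h2 (Or.inl hX) le_rfl f hf hm I hI hfI
        · -- the same prime degree from the third form on
          obtain ⟨h5, h6, h7⟩ := h4
          refine X.egh_two h5 h6 a ha hpos (fun i => ha (Fin.le_last i)) (fun i hi => ?_)
            f hf hm I hI hfI
          rcases (Fin.le_last i).eq_or_lt with hil | hil
          · rw [hil]
          · exact h7 i (Finset.mem_univ _) hil (by rw [card_filter_lt]; exact hi)
        · -- the type `(2, 3, p, A)`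
          obtain ⟨h5, h6, h7, h8⟩ := h4
          subst h5
          refine z_caseExtra hMT _ a ha h2 (Or.inr ⟨rfl, fun i hi => ?_, fun i hi => ?_,
            fun i hi => ?_⟩) le_rfl f hf hm I hI hfI
          · obtain ⟨j, hj⟩ := Finset.card_pos.1 h6
            rw [Finset.mem_filter] at hj
            have h9 : a i ≤ a j := ha (show i.1 ≤ j.1 by omega)
            have h10 := h2 i
            omega
          · by_contra hcon
            have h9 : (Finset.univ.filter fun j : Fin (3 + 1) => j < Fin.last 3 ∧ a j ≤ 3) ⊆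
                Finset.univ.filter fun j => j < i := by
              intro j hj
              rw [Finset.mem_filter] at hj ⊢
              refine ⟨Finset.mem_univ _, ?_⟩
              by_contra hcon2
              have := ha (not_lt.1 hcon2)
              omega
            have h10 := Finset.card_le_card h9
            rw [card_filter_lt] at h10
            omega
          · refine h8 i (Finset.mem_univ _) ?_ ?_
            · rw [Fin.lt_def, Fin.val_last]
              omega
            · rw [card_filter_lt]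
              exact hi
    · exact hMT a ha h2 f hf hm T hTu hT hs I hI hfI

/-! ### base change and completion -/

theorem z_adm_ext {K : Type*} [Field K] (h : c ≤ n) (a : Fin c → ℕ) (N : ℕ)
    (T : Finset (Fin c)) (hT : AdmP K a T) :
    AdmP K (extDeg h a N) (T.map (Fin.castLEEmb h)) := by
  classical
  intro i hi hcard
  obtain ⟨i0, hi0, rfl⟩ := Finset.mem_map.mp hi
  simp only [Fin.castLEEmb_apply] at hcard ⊢
  have hc : ∀ j : Fin c, ((T.map (Fin.castLEEmb h)).filter fun l => l < Fin.castLE h j).card =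
      (T.filter fun l => l < j).card := by
    intro j
    rw [filter_map_castLE, Finset.card_map]
  rw [hc] at hcard
  have hf2 : ((T.map (Fin.castLEEmb h)).filter fun j => j < Fin.castLE h i0 ∧
      extDeg h a N j = 2) = (T.filter fun j => j < i0 ∧ a j = 2).map (Fin.castLEEmb h) := by
    rw [← Finset.filter_filter, ← Finset.filter_filter, filter_map_castLE, Finset.filter_map]
    congr 1
    apply Finset.filter_congr
    intro j _
    simp only [Function.comp_apply, Fin.castLEEmb_apply, extDeg_castLE]
  have hf3 : ((T.map (Fin.castLEEmb h)).filter fun j => j < Fin.castLE h i0 ∧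
      extDeg h a N j ≤ 3) = (T.filter fun j => j < i0 ∧ a j ≤ 3).map (Fin.castLEEmb h) := by
    rw [← Finset.filter_filter, ← Finset.filter_filter, filter_map_castLE, Finset.filter_map]
    congr 1
    apply Finset.filter_congr
    intro j _
    simp only [Function.comp_apply, Fin.castLEEmb_apply, extDeg_castLE]
  rw [hf2, hf3, hc, filter_map_castLE, Finset.sum_map, extDeg_castLE, Finset.card_map,
    Finset.card_map]
  simp only [Fin.castLEEmb_apply, extDeg_castLE]
  rcases hT i0 hi0 hcard with h1 | h1 | h1 | h1 | h1 | h1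
  · refine Or.inl fun j hj hji => ?_
    obtain ⟨j0, hj0, rfl⟩ := Finset.mem_map.mp hj
    simp only [Fin.castLEEmb_apply, extDeg_castLE] at hji ⊢
    exact h1 j0 hj0 hji
  · exact Or.inr (Or.inl h1)
  · exact Or.inr (Or.inr (Or.inl h1))
  · refine Or.inr (Or.inr (Or.inr (Or.inl ⟨h1.1, fun j hj hji => ?_⟩)))
    obtain ⟨j0, hj0, rfl⟩ := Finset.mem_map.mp hj
    simp only [Fin.castLEEmb_apply, extDeg_castLE] at hji ⊢
    exact h1.2 j0 hj0 hji
  · refine Or.inr (Or.inr (Or.inr (Or.inr (Or.inl ⟨h1.1, h1.2.1, fun j hj hji hjc => ?_⟩))))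
    obtain ⟨j0, hj0, rfl⟩ := Finset.mem_map.mp hj
    simp only [Fin.castLEEmb_apply, extDeg_castLE] at hji hjc ⊢
    rw [hc] at hjc
    exact h1.2.2 j0 hj0 hji hjc
  · refine Or.inr (Or.inr (Or.inr (Or.inr (Or.inr ⟨h1.1, h1.2.1, h1.2.2.1,
      fun j hj hji hjc => ?_⟩))))
    obtain ⟨j0, hj0, rfl⟩ := Finset.mem_map.mp hj
    simp only [Fin.castLEEmb_apply, extDeg_castLE] at hji hjc ⊢
    rw [hc] at hjc
    exact h1.2.2.2 j0 hj0 hji hjc

theorem z_deg_ext {K : Type*} [Field K] (h : c ≤ n) (a : Fin c → ℕ) (N d : ℕ) (hN : d + 2 ≤ N)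
    (hd : DegP K a d) : DegP K (extDeg h a N) d := by
  rcases hd with hd | hd | ⟨h1, h2, h3⟩
  · exact Or.inl hd
  · refine Or.inr (Or.inl fun i hi => ?_)
    by_cases hc : i.1 < c
    · simp only [extDeg, hc, dif_pos]
      exact hd _ hi
    · simp only [extDeg, hc, dif_neg, not_false_iff]
      omega
  · refine Or.inr (Or.inr ⟨h1, h2, fun i hi => ?_⟩)
    by_cases hc : i.1 < c
    · simp only [extDeg, hc, dif_pos]
      exact h3 _ hi
    · simp only [extDeg, hc, dif_neg, not_false_iff]
      omega

theorem egh_final_p (K : Type*) [Field K] (h : c ≤ n) (a : Fin c → ℕ)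
    (ha : Monotone a) (h2 : ∀ i, 2 ≤ a i) (f : Fin c → MvPolynomial (Fin n) K)
    (hf : ∀ i, (f i).IsHomogeneous (a i)) (hreg : IsRegularSeq f) (T : Finset (Fin c))
    (hT : AdmP K a T)
    (hsplit : ∀ i, i ∉ T →
      SplitsLinear (a i) (MvPolynomial.map (algebraMap K (AlgebraicClosure K)) (f i)))
    (I : Ideal (MvPolynomial (Fin n) K)) (hI : HomIdeal I) (hfI : ∀ i, f i ∈ I) :
    ∃ J : Ideal (MvPolynomial (Fin n) K), J.restrictScalars K = lexPlusPowers h a I := by
  apply lexPlusPowers_isIdeal_of_growth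
  intro d
  set N := d + 2 + ∑ i, a i with hN
  refine ⟨N, by omega, ?_⟩
  have haN : ∀ i, a i ≤ N := by
    intro i
    have := Finset.single_le_sum (fun j _ => Nat.zero_le (a j)) (Finset.mem_univ i)
    omega
  refine growth_transfer K h a h2 f hf hreg I hI hfI d N (by omega) ?_
  intro F hF hFm hFf hFs I' hI' hFI'
  refine z_egh_main n _ (monotone_extDeg h a ha haN)
    (two_le_extDeg h a h2 (by omega)) F hF hFm (T.map (Fin.castLEEmb h))
    (z_adm_ext h a N T (z_adm_closure hT)) ?_ I' hI' hFI' d
  intro i hi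
  by_cases hic : i.1 < c
  · have h3 : (⟨i.1, hic⟩ : Fin c) ∉ T := fun hmem =>
        hi (Finset.mem_map.mpr ⟨⟨i.1, hic⟩, hmem, rfl⟩)
    have h4 : i = Fin.castLE h ⟨i.1, hic⟩ := rfl
    rw [h4, hFf, extDeg_castLE]
    exact hsplit _ h3
  · exact hFs i hic

/-- a prefix of the sequence is again admissible (as `caseS_prefix`) -/
theorem admP_prefix (K : Type*) [Field K] {c' : ℕ} (h' : c' ≤ c) {a : Fin c → ℕ}
    {T : Finset (Fin c)} (hT : AdmP K a T) :
    AdmP K (fun i : Fin c' => a (Fin.castLE h' i))
      (Finset.univ.filter fun i => Fin.castLE h' i ∈ T) := by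
  classical
  have key : ∀ i : Fin c', ((Finset.univ.filter fun i => Fin.castLE h' i ∈ T).filter
      fun j => j < i).map (Fin.castLEEmb h') = T.filter fun j => j < Fin.castLE h' i := by
    intro i
    ext j
    simp only [Finset.mem_map, Finset.mem_filter, Finset.mem_univ, true_and]
    constructor
    · rintro ⟨k, ⟨hk, hki⟩, rfl⟩
      exact ⟨hk, hki⟩
    · rintro ⟨hj, hji⟩
      have hj' : j.1 < c' := lt_trans hji i.2
      exact ⟨⟨j.1, hj'⟩, ⟨hj, hji⟩, rfl⟩
  exact z_adm_pull hT (Fin.castLEEmb h') _ (fun i hi => (Finset.mem_filter.1 hi).2)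
    (fun i _ => key i)

/-! ### single degrees -/

theorem z_growth_deg {K : Type*} [Field K] [IsAlgClosed K] {n : ℕ}
    (a : Fin n → ℕ) (ha : Monotone a) (h2 : ∀ i, 2 ≤ a i)
    (f : Fin n → MvPolynomial (Fin n) K) (hf : ∀ i, (f i).IsHomogeneous (a i))
    (hm : IsMPrimary (Ideal.span (Set.range f))) (I : Ideal (MvPolynomial (Fin n) K))
    (hfI : ∀ i, f i ∈ I) (d : ℕ) (hd : DegP K a d) :
    up a d ((boxD a d).card - hilb I d) + hilb I (d + 1) ≤ (boxD a (d + 1)).card := by
  classical
  have hinf : Infinite K := IsAlgClosed.instInfinite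
  have hpos : ∀ i, 1 ≤ a i := fun i => le_trans (by norm_num) (h2 i)
  rcases Nat.lt_or_ge 2 d with hd2 | hd2
  · refine growth_step a ha hpos f hf hm I hfI d (by omega) (d + 2) le_rfl ?_
    intro a' hmono c1 c2 c3 F hF hFm hFs I' hI' hFI'
    have h2' : ∀ i, 2 ≤ a' i := by
      intro i
      rcases Nat.lt_or_ge d (a i) with h | h
      · rcases c2 i h with h | h <;> omega
      · rw [c1 i h]; exact h2 i
    refine z_egh_main n a' hmono h2' F hF hFm (Finset.univ.filter fun i => a' i ≠ d + 2) ?_
      (fun i hi => hFs i (by simpa using hi)) I' hI' hFI' d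
    have hle : ∀ i : Fin n, ((Finset.univ.filter fun i => a' i ≠ d + 2).filter
        fun j => j < i).card ≤ i.1 := by
      intro i
      rw [← card_filter_lt i]
      exact Finset.card_le_card (Finset.filter_subset_filter _ (Finset.subset_univ _))
    rcases hd with hd | hd | ⟨hd3, hd4, hd5⟩
    · omega
    · intro i hi h3
      exfalso
      have h4 := hle i
      rw [Finset.mem_filter] at hi
      exact hi.2 (c3 i (hd i (by omega)))
    · have key : ∀ i : Fin n, a' i ≠ d + 2 → 2 ≤ i.1 → a' i = d := by
        intro i hi hi2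
        have h5 := hd5 i hi2
        rcases h5.eq_or_lt with h6 | h6
        · rw [c1 i h6.symm.le, h6]
        · exact (c2 i h6).resolve_right hi
      intro i hi h3
      have h4 := hle i
      rw [Finset.mem_filter] at hi
      have hi' := key i hi.2 (by omega)
      refine Or.inr (Or.inr (Or.inr (Or.inr (Or.inl ⟨?_, ?_, ?_⟩))))
      · rw [hi']; exact hd3
      · rw [hi']; exact hd4
      · intro j hj _ hjc
        have h5 := hle j
        rw [Finset.mem_filter] at hj
        rw [hi', key j hj.2 (by omega)]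
  · exact growth_le_two a ha h2 f hf hm I hfI d hd2

theorem z_growth_dual {K : Type*} [Field K] [IsAlgClosed K] {n : ℕ}
    (a : Fin n → ℕ) (ha : Monotone a) (h2 : ∀ i, 2 ≤ a i)
    (f : Fin n → MvPolynomial (Fin n) K) (hf : ∀ i, (f i).IsHomogeneous (a i))
    (hm : IsMPrimary (Ideal.span (Set.range f))) (I : Ideal (MvPolynomial (Fin n) K))
    (hI : HomIdeal I) (hfI : ∀ i, f i ∈ I) (d : ℕ)
    (hd : ∑ i, (a i - 1) ≤ d ∨ DegP K a (∑ i, (a i - 1) - d - 1)) :
    up a d ((boxD a d).card - hilb I d) + hilb I (d + 1) ≤ (boxD a (d + 1)).card := by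
  have hinf : Infinite K := IsAlgClosed.instInfinite
  have hpos : ∀ i, 1 ≤ a i := fun i => le_trans (by norm_num) (h2 i)
  rcases Nat.lt_or_ge (∑ i, (a i - 1)) (d + 1) with hd2 | hd2
  · exact egh_large_small a hpos f hf hm I hfI d hd2
  refine egh_dual a hpos f hf hm I hI hfI d hd2 ?_
  have h5 := z_growth_deg a ha h2 f hf hm (colonIdeal (Ideal.span (Set.range f)) I)
    (fun i h _ => Ideal.mul_mem_right _ _ (Ideal.subset_span ⟨i, rfl⟩))
    (∑ i, (a i - 1) - d - 1) (hd.resolve_left (by omega))
  have h6 : ∑ i, (a i - 1) - d - 1 + 1 = ∑ i, (a i - 1) - d := by omega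
  rwa [h6] at h5

theorem lexPart_growth_p (K : Type*) [Field K] (h : c ≤ n) (a : Fin c → ℕ)
    (ha : Monotone a) (h2 : ∀ i, 2 ≤ a i) (f : Fin c → MvPolynomial (Fin n) K)
    (hf : ∀ i, (f i).IsHomogeneous (a i)) (hreg : IsRegularSeq f)
    (I : Ideal (MvPolynomial (Fin n) K)) (hI : HomIdeal I) (hfI : ∀ i, f i ∈ I) (d : ℕ)
    (hd : DegP K a d ∨ n = c ∧ (∑ i, (a i - 1) ≤ d ∨ DegP K a (∑ i, (a i - 1) - d - 1)))
    (g : MvPolynomial (Fin n) K) (hg : g ∈ lexPart h a I d) (i : Fin n) :
    X i * g ∈ lexPart h a I (d + 1) := by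
  rcases hd with hd | ⟨rfl, hd⟩
  · set N := d + 2 + ∑ i, a i with hN
    have haN : ∀ i, a i ≤ N := by
      intro i
      have := Finset.single_le_sum (fun j _ => Nat.zero_le (a j)) (Finset.mem_univ i)
      omega
    refine mul_mem_lexPart h a I d N (by omega) ?_ g hg i
    refine growth_transfer K h a h2 f hf hreg I hI hfI d N (by omega) ?_
    intro F hF hFm _ _ I' _ hFI'
    exact z_growth_deg _ (monotone_extDeg h a ha haN) (two_le_extDeg h a h2 (by omega)) F hF hFm
      I' hFI' d (z_deg_ext h a N d (by omega) (z_deg_closure hd))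
  · refine mul_mem_lexPart le_rfl a I d (d + 2) le_rfl ?_ g hg i
    refine growth_transfer K le_rfl a h2 f hf hreg I hI hfI d (d + 2) le_rfl ?_
    intro F hF hFm _ _ I' hI' hFI'
    rw [extDeg_self] at hF ⊢
    refine z_growth_dual a ha h2 F hF hFm I' hI' hFI' d ?_
    rcases hd with hd | hd
    · exact Or.inl hd
    · exact Or.inr (z_deg_closure hd)

end Vale.Agent.P200.Z
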