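import Vale.Agent.P200.Z.Adm

/-!
Every degree sequence, with all degrees but the first two raised to a prime `p`.

If `I` contains a regular sequence of degrees `a i ≤ p` then it contains (over the algebraic closure) the
regular sequence `f_0, f_1, f_2 h_2, ..., f_(c-1) h_(c-1)` with suitable `h_i` of degree `p - a i`
(`X.exists_mult` for the system completed by linear forms), and the main induction `z_egh_main` (with
`T = univ`, case `p` prime) applies to it.
-/

namespace Vale.Agent.P200.Z

open MvPolynomial Vale.Agent.P200.G Vale.Agent.P200.Q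

variable {n c : ℕ}

theorem z2_adm {K : Type*} [Field K] {c : ℕ} (a : Fin c → ℕ) (p : ℕ) (hp : p.Prime)
    (hpK : (p.factorial : K) ≠ 0) :
    AdmP K (fun i : Fin c => if i.1 < 2 then a i else p) Finset.univ := by
  have hcard : ∀ j : Fin c, (Finset.univ.filter (· < j)).card = j.1 := by
    intro j
    have h1 : Finset.univ.filter (· < j) = Finset.Iio j := by
      ext k
      simp
    rw [h1, Fin.card_Iio]
  intro i _ h3
  rw [hcard] at h3
  refine Or.inr (Or.inr (Or.inr (Or.inr (Or.inl ⟨?_, ?_, ?_⟩))))
  · simp only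
    rw [if_neg (by omega)]
    exact hp
  · simp only
    rw [if_neg (by omega)]
    exact hpK
  · intro j _ _ h4
    rw [hcard] at h4
    simp only
    rw [if_neg (by omega), if_neg (by omega)]

theorem z2_growth (K : Type*) [Field K] {n c : ℕ} (h : c ≤ n) (a : Fin c → ℕ) (ha : Monotone a)
    (h2 : ∀ i, 2 ≤ a i) (f : Fin c → MvPolynomial (Fin n) K)
    (hf : ∀ i, (f i).IsHomogeneous (a i)) (hreg : IsRegularSeq f)
    (I : Ideal (MvPolynomial (Fin n) K)) (hI : HomIdeal I) (hfI : ∀ i, f i ∈ I)
    (p : ℕ) (hp : p.Prime) (hpK : (p.factorial : K) ≠ 0) (hap : ∀ i, a i ≤ p)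
    (d N : ℕ) (hN : d + 2 ≤ N) (hpN : p ≤ N) (a' : Fin c → ℕ)
    (ha' : a' = fun i => if i.1 < 2 then a i else p) :
    up (extDeg h a' N) d ((boxD (extDeg h a' N) d).card - hilb I d) + hilb I (d + 1) ≤
      (boxD (extDeg h a' N) (d + 1)).card := by
  classical
  set L := AlgebraicClosure K with hL
  have hinf : Infinite L := IsAlgClosed.instInfinite
  set fL : Fin c → MvPolynomial (Fin n) L := fun i => MvPolynomial.map (algebraMap K L) (f i)
    with hfL
  set IL : Ideal (MvPolynomial (Fin n) L) := I.map (MvPolynomial.map (σ := Fin n) (algebraMap K L))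
    with hIL
  have hILhom : HomIdeal IL := homIdeal_baseChange hI
  have hregL : IsRegSeq fL := isRegSeq_baseChange f a hf hreg
  have hfLhom : ∀ i, (fL i).IsHomogeneous (a i) := fun i => (hf i).map _
  have hfIL : ∀ i, fL i ∈ IL := fun i => Ideal.mem_map_of_mem _ (hfI i)
  obtain ⟨l, hl, hlm⟩ := exists_linear_extension h a (fun i => by have := h2 i; omega) fL hfLhom
    hregL
  have hp1 : 1 ≤ p := hp.one_lt.le
  -- the first system
  set F0 : Fin n → MvPolynomial (Fin n) L := fun i =>
    if hi : i.1 < c then fL ⟨i.1, hi⟩ else l ⟨i.1 - c, by omega⟩ with hF0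
  have hF0hom : ∀ i, (F0 i).IsHomogeneous (extDeg h a 1 i) := by
    intro i
    by_cases hi : i.1 < c
    · simp only [hF0, extDeg, hi, dif_pos]
      exact hfLhom _
    · simp only [hF0, extDeg, hi, dif_neg, not_false_iff]
      exact hl _
  have hF0m : IsMPrimary (Ideal.span (Set.range F0)) := by
    refine G.IsMPrimary.mono hlm (sup_le ?_ ?_)
    · rw [Ideal.span_le]
      rintro _ ⟨j, rfl⟩
      apply Ideal.subset_span
      refine ⟨Fin.castLE h j, ?_⟩
      simp [hF0]
    · rw [Ideal.span_le]
      rintro _ ⟨j, rfl⟩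
      apply Ideal.subset_span
      refine ⟨⟨j.1 + c, by omega⟩, ?_⟩
      simp [hF0]
  have hA0 : ∀ i, 1 ≤ extDeg h a 1 i := by
    intro i
    by_cases hi : i.1 < c
    · simp only [extDeg, hi, dif_pos]
      exact le_trans one_le_two (h2 _)
    · simp only [extDeg, hi, dif_neg, not_false_iff]
      exact le_rfl
  have hA0p : ∀ i, extDeg h a 1 i ≤ p := by
    intro i
    by_cases hi : i.1 < c
    · simp only [extDeg, hi, dif_pos]
      exact hap _
    · simp only [extDeg, hi, dif_neg, not_false_iff]
      exact hp1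
  obtain ⟨g, hg, hgm⟩ := X.exists_mult (p := p) (extDeg h a 1) hA0 hA0p F0 hF0hom hF0m
  -- the second system
  set A := extDeg h a' N with hA
  set F : Fin n → MvPolynomial (Fin n) L := fun i =>
    if hi : i.1 < c then (if i.1 < 2 then fL ⟨i.1, hi⟩ else fL ⟨i.1, hi⟩ * g i)
    else (l ⟨i.1 - c, by omega⟩) ^ N with hF
  have hFhom : ∀ i, (F i).IsHomogeneous (A i) := by
    intro i
    by_cases hi : i.1 < c
    · by_cases hi2 : i.1 < 2
      · simp only [hF, hA, extDeg, hi, dif_pos, hi2, if_pos, ha']
        exact hfLhom _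
      · simp only [hF, hA, extDeg, hi, dif_pos, hi2, if_neg, not_false_iff, ha']
        have h1 := (hfLhom ⟨i.1, hi⟩).mul (hg i)
        have h3 : extDeg h a 1 i = a ⟨i.1, hi⟩ := by
          simp only [extDeg, hi, dif_pos]
        rw [h3, Nat.add_sub_cancel' (hap _)] at h1
        exact h1
    · simp only [hF, hA, extDeg, hi, dif_neg, not_false_iff]
      have := (hl ⟨i.1 - c, by omega⟩).pow N
      rwa [one_mul] at this
  have hFmem : ∀ i, F i ∈ Ideal.span (Set.range F) := fun i => Ideal.subset_span ⟨i, rfl⟩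
  have hFprim : IsMPrimary (Ideal.span (Set.range F)) := by
    rw [isMPrimary_iff_radical] at hgm ⊢
    intro i
    have h3 : Ideal.span (Set.range fun i => F0 i * g i) ≤
        (Ideal.span (Set.range F)).radical := by
      rw [Ideal.span_le]
      rintro _ ⟨j, rfl⟩
      have h4 := hFmem j
      by_cases hj : j.1 < c
      · apply Ideal.le_radical
        by_cases hj2 : j.1 < 2
        · have e1 : F j = F0 j := by
            simp only [hF, hF0, hj, dif_pos, hj2, if_pos]
          rw [e1] at h4
          exact Ideal.mul_mem_right _ _ h4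
        · have e1 : F j = F0 j * g j := by
            simp only [hF, hF0, hj, dif_pos, hj2, if_neg, not_false_iff]
          rw [e1] at h4
          exact h4
      · refine Ideal.mul_mem_right _ _ ⟨N, ?_⟩
        have e1 : F j = F0 j ^ N := by
          simp only [hF, hF0, hj, dif_neg, not_false_iff]
        rw [e1] at h4
        exact h4
    have h4 := Ideal.radical_mono h3 (hgm i)
    rwa [Ideal.radical_idem] at h4
  set S : Set (MvPolynomial (Fin n) L) := Set.range fun j => l j ^ N with hS
  have hShom : ∀ g ∈ S, g.IsHomogeneous N := by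
    rintro _ ⟨j, rfl⟩
    have := (hl j).pow N
    rwa [one_mul] at this
  set I' := IL ⊔ Ideal.span S with hI'
  have hI'hom : HomIdeal I' := G.homIdeal_sup hILhom (G.homIdeal_span fun g hg => ⟨N, hShom g hg⟩)
  have hFI' : ∀ i, F i ∈ I' := by
    intro i
    by_cases hi : i.1 < c
    · by_cases hi2 : i.1 < 2
      · simp only [hF, hi, dif_pos, hi2, if_pos]
        exact Ideal.mem_sup_left (hfIL _)
      · simp only [hF, hi, dif_pos, hi2, if_neg, not_false_iff]
        exact Ideal.mem_sup_left (Ideal.mul_mem_right _ _ (hfIL _))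
    · simp only [hF, hi, dif_neg, not_false_iff]
      exact Ideal.mem_sup_right (Ideal.subset_span ⟨_, rfl⟩)
  have hmono' : Monotone a' := by
    rw [ha']
    intro i j hij
    have hij' : i.1 ≤ j.1 := hij
    simp only
    split_ifs with h1 h3 h3
    · exact ha hij
    · exact hap i
    · omega
    · exact le_rfl
  have ha'N : ∀ i, a' i ≤ N := by
    intro i
    rw [ha']
    simp only
    split_ifs
    · exact (hap i).trans hpN
    · exact hpN
  have h2' : ∀ i, 2 ≤ a' i := by
    intro i
    rw [ha']
    simp only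
    split_ifs
    · exact h2 i
    · exact hp.two_le
  have hadm : AdmP L a' Finset.univ := by
    rw [ha']
    exact z2_adm a p hp (z_cast_ne hpK)
  have key := z_egh_main n A (monotone_extDeg h a' hmono' ha'N)
    (two_le_extDeg h a' h2' (by omega)) F hFhom hFprim (Finset.univ.map (Fin.castLEEmb h))
    (z_adm_ext h a' N Finset.univ hadm) (by
      intro i hi
      have hic : ¬ i.1 < c := fun hic =>
        hi (Finset.mem_map.mpr ⟨⟨i.1, hic⟩, Finset.mem_univ _, rfl⟩)
      simp only [hF, hA, extDeg, hic, dif_neg, not_false_iff]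
      exact splitsLinear_pow_fin (hl _) N) I' hI'hom hFI' d
  have e1 : hilb I' d = hilb I d := by
    rw [hI', hilb_sup_span_high hILhom S hShom (by omega), hIL, hilb_baseChange I hI]
  have e2 : hilb I' (d + 1) = hilb I (d + 1) := by
    rw [hI', hilb_sup_span_high hILhom S hShom (by omega), hIL, hilb_baseChange I hI]
  rw [e1, e2] at key
  exact key

theorem egh_raise (K : Type*) [Field K] (h : c ≤ n) (a : Fin c → ℕ)
    (ha : Monotone a) (h2 : ∀ i, 2 ≤ a i) (f : Fin c → MvPolynomial (Fin n) K)
    (hf : ∀ i, (f i).IsHomogeneous (a i)) (hreg : IsRegularSeq f)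
    (I : Ideal (MvPolynomial (Fin n) K)) (hI : HomIdeal I) (hfI : ∀ i, f i ∈ I)
    (p : ℕ) (hp : p.Prime) (hpK : (p.factorial : K) ≠ 0) (hap : ∀ i, a i ≤ p) :
    ∃ J : Ideal (MvPolynomial (Fin n) K), J.restrictScalars K =
      lexPlusPowers h (fun i => if i.1 < 2 then a i else p) I := by
  apply lexPlusPowers_isIdeal_of_growth
  intro d
  exact ⟨d + 2 + p, by omega, z2_growth K h a ha h2 f hf hreg I hI hfI p hp hpK hap d (d + 2 + p)
    (by omega) (by omega) _ rfl⟩

end Vale.Agent.P200.Z
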